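import Vale.Agent.P226.Main

/-- P226, cells of Gaussian measure outside `(1/7, 4/9)`: for all `d` and `k` and all pairwise
disjoint measurable `A₁, …, A_k ⊆ ℝ^d` such that every `A_i` has standard Gaussian measure at most
`1/7` or at least `4/9`, the sum of the squared norms of the Gaussian first moments is at most
`9 / (8 π)`. -/
theorem Vale.Agent.Results.P226.SmallCells.result (d k : ℕ)
    (A : Fin k → Set (EuclideanSpace ℝ (Fin d))) (hA : ∀ i, MeasurableSet (A i))
    (hdisj : Pairwise (Function.onFun Disjoint A))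
    (hsize : ∀ i,
      (ProbabilityTheory.stdGaussian (EuclideanSpace ℝ (Fin d))).real (A i) ≤ 1 / 7 ∨
      4 / 9 ≤ (ProbabilityTheory.stdGaussian (EuclideanSpace ℝ (Fin d))).real (A i)) :
    ∑ i, ‖∫ x in A i, x ∂(ProbabilityTheory.stdGaussian (EuclideanSpace ℝ (Fin d)))‖ ^ 2
      ≤ 9 / (8 * Real.pi) :=
  P226.propeller_cells k A hA hdisj hsize
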